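import Crest.Agent.R192.Iface
import Crest.Agent.R192.Ker
import Crest.Agent.R192.Lab
import Crest.Agent.R203.AFlow

/-! R192/HS (helper6): smoothness, periodicity, equivariance and locality of the label part. -/

set_option autoImplicit false

open MeasureTheory Complex
open scoped ContDiff ComplexConjugate

noncomputable section

namespace Crest.Agent.R192
namespace HS

variable {G : Type} [Group G] {L : Len G} {P : Par} {g : G} {n : ℕ}

/-! ### vanishing outside `FF` -/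

theorem aE_zero (h : Valid L P) (f : Fld P g) {x : Fin (n + 1) → G} {z : Lab g × Fin 2} (hz : z ∉ FF L P g x)
    (σ : ℝ) (v : Fin (n + 1) → ℝ) : aE P f (EJ L P (bs g x σ v)) z = 0 := by
  have h1 : bs g x σ v P.kk (fun y => (fJ L P z.1 y : ℂ)) = (P.R : ℝ) := by
    rw [← bs_const g x σ v h.cdf_kk ((P.R : ℝ) : ℂ)]
    refine bs_congr g x σ v _ fun m i => ?_
    rw [fJ_zpow, fJ, min_eq_right (not_lt.1 fun e => hz ((mem_FF L P x z).2 ⟨i, e⟩))]
  have h2 : (0 : ℝ) < P.gam := zero_lt_one.trans_le h.gam_ge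
  have h3 : (0 : ℝ) < P.rho := by exact_mod_cast h.rho_pos
  rw [aE, EJ, h1, ofReal_re, cutf_eq_zero, zero_mul]
  rw [le_div_iff₀ (by positivity), Par.R]
  push_cast
  nlinarith [mul_pos h2 h3]

theorem ss_zero (h : Valid L P) (o : Omg P g) {x : Fin (n + 1) → G} {z : Lab g × Fin 2} (hz : z ∉ FF L P g x)
    (σ : ℝ) (v : Fin (n + 1) → ℝ) : ss L P o z (bs g x σ v) = 0 := by
  simp [ss, aE_zero h o.1 hz]

theorem PP_bs (o : Omg P g) (z : Lab g × Fin 2) (x : Fin (n + 1) → G) (σ : ℝ) (v : Fin (n + 1) → ℝ) :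
    PP L P o z (bs g x σ v) = (chi L P z.1 - 1)⁻¹ * ∫ s in (0 : ℝ)..1, ss L P o z (bs g x (σ + s) v) := by
  simp only [PP, sh_bs]

theorem PP_zero (h : Valid L P) (o : Omg P g) {x : Fin (n + 1) → G} {z : Lab g × Fin 2} (hz : z ∉ FF L P g x)
    (σ : ℝ) (v : Fin (n + 1) → ℝ) : PP L P o z (bs g x σ v) = 0 := by
  simp [PP_bs, ss_zero h o hz]

theorem nrm_bs (h : Valid L P) (f : Fld P g) (x : Fin (n + 1) → G) (σ : ℝ) (v : Fin (n + 1) → ℝ) :
    nrm L P f (bs g x σ v) = √((∑ z ∈ FF L P g x, aE P f (EJ L P (bs g x σ v)) z ^ 2) +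
      Real.exp (-(8 * P.gam * P.rho))) := by
  rw [nrm, tsum_eq_sum fun z hz => by rw [aE_zero h f hz, zero_pow two_ne_zero]]

open Classical in
theorem PsiN_bs (h : Valid L P) (o : Omg P g) (x : Fin (n + 1) → G) (σ σ' : ℝ) (v v' : Fin (n + 1) → ℝ) :
    PsiN L P o (bs g x σ v) (bs g x σ' v') = ∑ z ∈ FF L P g x, ∑ z' ∈ FF L P g x,
      if ch L P o z = ch L P o z' then conj (PP L P o z (bs g x σ v)) * ss L P o z' (bs g x σ' v') else 0 := by
  rw [PsiN, tsum_eq_sum (s := FF L P g x) fun z hz => by simp [PP_zero h o hz]]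
  exact Finset.sum_congr rfl fun z _ => tsum_eq_sum fun z' hz => by simp [ss_zero h o hz]

/-! ### smoothness -/

section Smooth
variable {B : Type} [NormedAddCommGroup B] [NormedSpace ℝ B] {σ : B → ℝ} {v : B → Fin (n + 1) → ℝ}
  (x : Fin (n + 1) → G)

theorem contDiff_AA (R : ℕ) {κ κ' : ℝ → ℝ} (hκ : Adm κ) (hκ' : Adm κ') (hσ : ContDiff ℝ ∞ σ) (hv : ContDiff ℝ ∞ v) :
    ContDiff ℝ ∞ fun p => AA L R κ κ' (bs g x (σ p) (v p)) :=
  reCLM.contDiff.comp (contDiff_bs g x hκ hσ hv fun _ => contDiff_bs g x hκ' hσ hv fun _ => contDiff_const)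

theorem contDiff_cut (h : Valid L P) (hσ : ContDiff ℝ ∞ σ) (hv : ContDiff ℝ ∞ v) :
    ContDiff ℝ ∞ fun p => cut L P (bs g x (σ p) (v p)) :=
  ((contDiff_cutf 1).comp (((ContDiff.sum fun _ hb => contDiff_AA x _
    (h.cdf_k1 (Finset.mem_range.1 hb).le).adm (h.cdf_k1 (Finset.mem_range.1 hb)).adm hσ hv).div_const _).div_const
      _)).mul ((contDiff_cutf 1).comp ((contDiff_AA x _ h.cdf_kk.adm h.cdf_kk.adm hσ hv).div_const _))

theorem contDiff_EJ (h : Valid L P) (J : Lab g) (hσ : ContDiff ℝ ∞ σ) (hv : ContDiff ℝ ∞ v) :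
    ContDiff ℝ ∞ fun p => EJ L P (bs g x (σ p) (v p)) J :=
  contDiff_const.mul (reCLM.contDiff.comp (contDiff_bs g x h.cdf_kk.adm hσ hv fun _ => contDiff_const))

theorem contDiff_aE (h : Valid L P) (f : Fld P g) (z : Lab g × Fin 2) (hσ : ContDiff ℝ ∞ σ) (hv : ContDiff ℝ ∞ v) :
    ContDiff ℝ ∞ fun p => aE P f (EJ L P (bs g x (σ p) (v p))) z := by
  have h1 := contDiff_EJ x h z.1 hσ hv
  refine ((contDiff_cutf 3).comp (h1.div_const _)).mul (ContDiff.pow ?_ 2)
  unfold vE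
  cases f z.1 z.2 with
  | none => exact contDiff_const
  | some s => exact contDiff_const.mul h1.neg.exp

theorem contDiff_nrm (h : Valid L P) (f : Fld P g) (hσ : ContDiff ℝ ∞ σ) (hv : ContDiff ℝ ∞ v) :
    ContDiff ℝ ∞ fun p => nrm L P f (bs g x (σ p) (v p)) := by
  simp only [nrm_bs h]
  exact ((ContDiff.sum fun z _ => (contDiff_aE x h f z hσ hv).pow 2).add contDiff_const).sqrt fun p => by positivity

theorem contDiff_ss (h : Valid L P) (o : Omg P g) (z : Lab g × Fin 2) (hσ : ContDiff ℝ ∞ σ) (hv : ContDiff ℝ ∞ v) :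
    ContDiff ℝ ∞ fun p => ss L P o z (bs g x (σ p) (v p)) := by
  have h1 : ContDiff ℝ ∞ fun p => cut L P (bs g x (σ p) (v p)) *
      (aE P o.1 (EJ L P (bs g x (σ p) (v p))) z / nrm L P o.1 (bs g x (σ p) (v p))) :=
    (contDiff_cut x h hσ hv).mul ((contDiff_aE x h o.1 z hσ hv).div (contDiff_nrm x h o.1 hσ hv) fun p => by
      rw [nrm_bs h]; positivity)
  have h2 : ContDiff ℝ ∞ fun p => bs g x (σ p) (v p) P.kk (zeta L P z.1) :=
    contDiff_bs g x h.cdf_kk.adm hσ hv fun _ => contDiff_const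
  exact ((ofRealCLM.contDiff.comp h1).mul h2).mul contDiff_const

theorem contDiff_PP (h : Valid L P) (o : Omg P g) (z : Lab g × Fin 2) (hσ : ContDiff ℝ ∞ σ) (hv : ContDiff ℝ ∞ v) :
    ContDiff ℝ ∞ fun p => PP L P o z (bs g x (σ p) (v p)) := by
  have h1 : ContDiff ℝ ∞ fun p : ℝ × ℝ × (Fin (n + 1) → ℝ) => ss L P o z (bs g x (p.2.1 + p.1) p.2.2) :=
    contDiff_ss x h o z (contDiff_snd.fst.add contDiff_fst) contDiff_snd.snd
  have h2 := (R203.contDiff_param_integral h1).comp (hσ.prodMk hv)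
  simp only [PP_bs]
  exact contDiff_const.mul h2

end Smooth

/-! ### the action of the centraliser -/

theorem AA_act (R : ℕ) (κ κ' : ℝ → ℝ) (c : G) (β : Pth G) : AA L R κ κ' (act c β) = AA L R κ κ' β := by
  simp only [AA, act, dT_mul]

theorem cut_act (c : G) (β : Pth G) : cut L P (act c β) = cut L P β := by simp only [cut, rr, ro, AA_act]

theorem PsiK_act (R : ℕ) (κ κ' : ℝ → ℝ) (c : G) (β β' : Pth G) :
    PsiK L R κ κ' (act c β) (act c β') = PsiK L R κ κ' β β' := by simp only [PsiK, act, dT_mul]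

theorem ss_act (h : Valid L P) (hg : Hyp L P g) (o : Omg P g) (z : Lab g × Fin 2) {β : Pth G} (hβ : Homog β) :
    ss L P o z (act g β) = chi L P z.1 * ss L P o z β := by
  have h1 : EJ L P (act g β) = (EJ L P β : Lab g → ℝ) := funext fun J => by
    have := fJ_zpow L P 1 J
    simp only [zpow_one] at this
    simp only [EJ, act, this]
  have h2 : act g β P.kk (zeta L P z.1) = chi L P z.1 * β P.kk (zeta L P z.1) := by
    simp only [act, h.zeta_mul hg]
    exact hβ _ _ _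
  simp only [ss, nrm, cut_act, h1, h2]
  ring

theorem PP_of_ss {o o' : Omg P g} {z z' : Lab g × Fin 2} {c : G} {θ : ℂ} (hc : chi L P z'.1 = chi L P z.1)
    (h : ∀ β, Homog β → ss L P o' z' (act c β) = θ * ss L P o z β) {β : Pth G} (hβ : Homog β) :
    PP L P o' z' (act c β) = θ * PP L P o z β := by
  simp only [PP, sh_act, h _ (hβ.sh _), intervalIntegral.integral_const_mul, hc]
  ring

theorem conj_mul_self {θ : ℂ} (h : ‖θ‖ = 1) : conj θ * θ = 1 := by rw [conj_mul', h]; simp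

/-- the general invariance statement -/
theorem PsiN_of_ss {o o' : Omg P g} (e : Lab g × Fin 2 ≃ Lab g × Fin 2) {c : G} {θ : Lab g × Fin 2 → ℂ}
    (hc : ∀ z, chi L P (e z).1 = chi L P z.1)
    (h : ∀ z β, Homog β → ss L P o' (e z) (act c β) = θ z * ss L P o z β)
    (h1 : ∀ z z', ch L P o' (e z) = ch L P o' (e z') ↔ ch L P o z = ch L P o z')
    (h2 : ∀ z z', ch L P o z = ch L P o z' → θ z = θ z') (h3 : ∀ z, ‖θ z‖ = 1) {β β' : Pth G} (hβ : Homog β)
    (hβ' : Homog β') : PsiN L P o' (act c β) (act c β') = PsiN L P o β β' := by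
  rw [PsiN, PsiN, ← e.tsum_eq]
  refine tsum_congr fun z => ?_
  rw [← e.tsum_eq]
  refine tsum_congr fun z' => if_ctx_congr (h1 z z') (fun e' => ?_) fun _ => rfl
  rw [PP_of_ss (hc z) (h z) hβ, h z' _ hβ', ← h2 z z' e', map_mul]
  linear_combination conj (PP L P o z β) * ss L P o z' β' * conj_mul_self (h3 z)

open Classical in
theorem ss_lsm (h : Valid L P) (hg : Hyp L P g) (c : G) (hc : Commute c g) (o : Omg P g) (z : Lab g × Fin 2)
    {β : Pth G} (hβ : Homog β) : ss L P (actO P c hc o) (lsm g c hc z.1, z.2) (act c β) =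
      (if far L P z.1 then chi L P z.1 ^ nu c hc z.1 else 1) * ss L P o z β := by
  have h1 : ∀ z : Lab g × Fin 2, aE P (actO P c hc o).1 (EJ L P (act c β)) (lsm g c hc z.1, z.2) =
      aE P o.1 (EJ L P β) z := fun z => by
    simp only [aE, vE, actO, EJ, act, fJ_lsm, Equiv.symm_apply_apply]
  have h2 : nrm L P (actO P c hc o).1 (act c β) = nrm L P o.1 β := by
    rw [nrm, nrm, ← ((lsm g c hc).prodCongr (Equiv.refl (Fin 2))).tsum_eq]
    exact congrArg (fun t => √(t + _)) (tsum_congr fun z => congrArg (· ^ 2) (h1 z))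
  have h3 : act c β P.kk (zeta L P (lsm g c hc z.1)) = chi L P z.1 ^ nu c hc z.1 * β P.kk (zeta L P z.1) := by
    simp only [act, h.zeta_lsm hg]
    exact hβ _ _ _
  simp only [ss, cut_act, h1, h2, h3, off, far_lsm]
  split_ifs with e
  · ring
  · simp only [actO, Equiv.symm_apply_apply]
    rw [cn_pow_val_sub, chi_of_near L P e, zpow_neg]
    have : P.cn ^ nu c hc z.1 ≠ 0 := zpow_ne_zero _ (norm_ne_zero_iff.1 (by rw [norm_cn]; exact one_ne_zero))
    field_simp

theorem PsiN_lsm (h : Valid L P) (hg : Hyp L P g) (c : G) (hc : Commute c g) (o : Omg P g) {β β' : Pth G}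
    (hβ : Homog β) (hβ' : Homog β') : PsiN L P (actO P c hc o) (act c β) (act c β') = PsiN L P o β β' := by
  refine PsiN_of_ss ((lsm g c hc).prodCongr (Equiv.refl (Fin 2))) (fun z => chi_lsm L P c hc z.1)
    (fun z β hβ => ss_lsm h hg c hc o z hβ) (fun z z' => ?_) (fun z z' e => ?_) (fun z => ?_) hβ hβ'
  · have e : ∀ z : Lab g × Fin 2, ch L P (actO P c hc o) (lsm g c hc z.1, z.2) =
        Prod.map (Option.map (lsm g c hc)) id (ch L P o z) := fun z => by
      by_cases e : far L P z.1 <;> simp [ch, far_lsm, actO, e]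
    exact (congrArg₂ Eq (e z) (e z')).to_iff.trans
      ((Option.map_injective (lsm g c hc).injective).prodMap Function.injective_id).eq_iff
  · have := congrArg Prod.fst e
    simp only [ch] at this
    split_ifs at this ⊢ with h1 h2
    · rw [Option.some.inj this]
    · rfl
  · split_ifs
    · rw [norm_zpow, h.norm_chi, one_zpow]
    · exact norm_one

/-! ### locality -/

theorem ss_loc (h : Valid L P) {x : Fin (n + 1) → G} {o o' : Omg P g}
    (ho : ∀ z ∈ FF L P g x, o.1 z.1 = o'.1 z.1 ∧ o.2 z.1 = o'.2 z.1) {z : Lab g × Fin 2} (hz : z ∈ FF L P g x)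
    (σ : ℝ) (v : Fin (n + 1) → ℝ) : ss L P o z (bs g x σ v) = ss L P o' z (bs g x σ v) := by
  have h1 : ∀ z ∈ FF L P g x, ∀ E, aE P o.1 E z = aE P o'.1 E z := fun z hz E => by simp only [aE, vE, (ho z hz).1]
  rw [ss, ss, nrm_bs h, nrm_bs h, h1 z hz, off, off, (ho z hz).2,
    Finset.sum_congr rfl fun z hz => congrArg (· ^ 2) (h1 z hz _)]

end HS

open HS in
theorem stHS : StHS := fun G _ L P g h hg => by
  refine ⟨fun o => ⟨fun n x => ?_, fun β β' hβ hβ' => ?_⟩, fun o z n x => contDiff_ss x h o z contDiff_fst contDiff_snd,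
    fun o z β hβ => ss_act h hg o z hβ, fun o z n x σ v hz => ss_zero h o hz σ v, fun c hc o β β' hβ hβ' => ?_,
    fun n x o o' ho σ v σ' v' => ?_⟩
  · simp only [Phi, PsiN_bs h]
    refine ContDiff.sum fun z _ => ContDiff.sum fun z' _ => ?_
    split_ifs
    · exact (conjCLE.contDiff.comp (contDiff_PP x h o z contDiff_fst.fst contDiff_fst.snd)).mul
        (contDiff_ss x h o z' contDiff_snd.fst contDiff_snd.snd)
    · exact contDiff_const
  · exact PsiN_of_ss (Equiv.refl _) (fun _ => rfl) (fun z β hβ => ss_act h hg o z hβ) (fun _ _ => Iff.rfl)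
      (fun _ _ => chi_eq_of_ch_eq o) (fun z => h.norm_chi z.1) hβ hβ'
  · rw [Psi, Psi, PsiK_act, PsiK_act, PsiN_lsm h hg c hc o hβ hβ']
  · simp only [Phi, Psi, PsiN_bs h]
    refine congrArg _ (Finset.sum_congr rfl fun z hz => Finset.sum_congr rfl fun z' hz' => ?_)
    simp only [ch, PP_bs, ss_loc h ho hz, ss_loc h ho hz', (ho z hz).1, (ho z' hz').1]

end Crest.Agent.R192
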